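import Vale.Agent.P110.Diagonal

/-! Ultraflat real Littlewood polynomials exist, one for every length. -/

open Filter Topology

theorem Vale.Agent.Results.P110.Ultraflat.result :
    ∃ ε : (N : ℕ) → Fin N → ℝ, (∀ N k, ε N k = 1 ∨ ε N k = -1) ∧
      Tendsto (fun N : ℕ => ⨆ z : {z : ℂ // ‖z‖ = 1},
        |‖∑ k : Fin N, (ε N k : ℂ) * (z : ℂ) ^ (k : ℕ)‖ / Real.sqrt N - 1|) atTop (𝓝 0) ∧
      ∀ c : ℝ, 0 < c → ∃ N₀ : ℕ, ∀ N : ℕ, N₀ ≤ N → ∀ z : ℂ, ‖z‖ = 1 →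
        (1 - c) * Real.sqrt N ≤ ‖∑ k : Fin N, (ε N k : ℂ) * z ^ (k : ℕ)‖ ∧
        ‖∑ k : Fin N, (ε N k : ℂ) * z ^ (k : ℕ)‖ ≤ (1 + c) * Real.sqrt N := by
  obtain ⟨ε, h1, h2⟩ := Vale.Agent.P110.exists_seq
  refine ⟨ε, h1, ?_, fun c hc => ?_⟩
  · rw [Metric.tendsto_nhds]
    intro c hc
    filter_upwards [h2 (c / 2) (by positivity), eventually_gt_atTop 0] with N hN hN0
    have hs : 0 < Real.sqrt N := Real.sqrt_pos.2 (by exact_mod_cast hN0)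
    rw [Real.dist_0_eq_abs, abs_of_nonneg (Real.iSup_nonneg fun z => abs_nonneg _)]
    refine lt_of_le_of_lt (Real.iSup_le (fun z => ?_) (by positivity)) (half_lt_self hc)
    rw [div_sub_one hs.ne', abs_div, abs_of_pos hs, div_le_iff₀ hs]
    exact hN z z.2
  · obtain ⟨N₀, hN₀⟩ := eventually_atTop.1 (h2 c hc)
    refine ⟨N₀, fun N hN z hz => ?_⟩
    have := abs_le.1 (hN₀ N hN z hz)
    constructor <;> linarith [this.1, this.2]
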